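import Vale.Agent.P014Y.F.St
import Vale.Agent.P004F.Fd.Fld

/-! # P014Y (frame), row FLD: the field and the Euler systems exist -/

set_option autoImplicit false
set_option linter.all false

open NumberField
open scoped NumberTheorySymbols Classical

noncomputable section

namespace Vale.Agent.P014Y.F

open Vale.Agent.P022 Vale.Agent.P004K P004K.Rc Vale.Agent.P014U
open Vale.Agent.P022D.W (dec)
open Vale.Agent.P022E.GW (Ov Fb)
open P004R.Xt (iz)
open P004F.Qx (Ch QEXP)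
open P004F.Fd

variable [Pp]

namespace Fd

theorem inS (e : Crv) {p : ℕ} (hp : p.Prime) (d : p ∣ e.N) : p ∈ e.S :=
  by_contra fun a => (e.bad p hp a).1 d

theorem d4 (e : Crv) {k : ℕ} (hk : 4 * e.N ≤ k) : 4 * e.N ∣ (∏ p ∈ e.S.toFinset, p) ^ (k + 1) := by
  have N0 := e.rn.pos
  have R0 : ∏ p ∈ e.S.toFinset, p ≠ 0 :=
    Finset.prod_ne_zero_iff.2 fun p hp => (e.ov p (List.mem_toFinset.1 hp)).1.ne_zero
  refine .trans ?_ (pow_dvd_pow _ (hk.trans (Nat.le_succ _)))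
  exact (Nat.dvd_pow_self_iff (by omega) R0).2 fun p a => by
    obtain ⟨a1, a2, -⟩ := Nat.mem_primeFactors.1 a
    refine Nat.mem_primeFactors.2 ⟨a1, Finset.dvd_prod_of_mem _ (List.mem_toFinset.2 ?_), R0⟩
    rcases (Nat.Prime.dvd_mul a1).1 a2 with b | b
    · rw [(Nat.prime_dvd_prime_iff_eq a1 Nat.prime_two).1 (a1.dvd_of_dvd_pow (n := 2) b)]
      exact e.two
    · exact inS e a1 b

/-- one curve over a given field -/
theorem one (hh : HEEG) (qexp : QEXP) (e : Crv) : ∃ T, ∀ δ', T ≤ δ' → e.Adm δ' → ∀ (K : Type) [Field K] [NumberField K]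
    (j : K →+* Qb) (θ η : 𝓞 K) s (β n : ℤ) (φ : ℕ → GQ) (c : GQ), Iq K → θ ^ 2 = -(δ' : 𝓞 K) →
    0 < (JJ j θ).im → Ge j η s β n → 2 * η = θ - β → β ^ 2 + δ' = 4 * n →
    ((4 * e.N : ℕ) : ℤ) ∣ n → (∀ p ∈ e.S, (p : ℤ) ∣ n ∧ iz j η ∈ e.P p ∧ ¬ (p : ℤ) ∣ β) →
    (∀ p ∈ e.S, Fb p (e.P p) (φ p)) → IsConj c → ∃ b : Fld e, b.δ' = δ' ∧ b.β = β ∧ b.φ = φ ∧
      b.c = c ∧ b.Γ = GK j ∧ (∀ c, Hc b.j c = Hc j c) ∧ (∀ q k, Typ b.K q k ↔ Typ K q k) ∧
      ∃ i : b.K ≃+* K, (∀ x, j (i x) = b.j x) ∧ i b.θ = θ ∧ i b.η = η := by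
  obtain ⟨u0, hu0, s0, a0, a1, hT⟩ := qexp _ _ _ _ _ _ _ _ _ _ e.rn e.par e.S e.nd
    fun p hp => (e.ov p hp).1
  obtain ⟨T, hT⟩ := hT e.P fun p hp => (e.ov p hp).2
  refine ⟨T + 64 * e.N ^ 4 + 5,
    fun δ' hδ ad K _ _ j θ η s β n φ c hK hθ im g e1 e2 d4 hp hφ hc => ?_⟩
  have cN : IsCoprime β (e.N : ℤ) := Int.isCoprime_iff_gcd_eq_one.2
    (Nat.eq_one_iff_not_exists_prime_dvd.2 fun p a d => (hp p (inS e a (Int.natCast_dvd_natCast.1
      ((Int.natCast_dvd_natCast.2 d).trans (Int.gcd_dvd_right _ _))))).2.2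
        ((Int.natCast_dvd_natCast.2 d).trans (Int.gcd_dvd_left _ _)))
  have cp (p) (h : p ∈ e.S) : IsCoprime β (p : ℤ) :=
    ((Nat.prime_iff_prime_int.1 (e.ov p h).1).irreducible.coprime_iff_not_dvd.2 (hp p h).2.2).symm
  have le (p) (h : p ∈ e.S) := g.dec (e.ov p h) (hp p h).2.1 (hp p h).2.2
  have up := g.upm (by omega)
  have ch : Ch j e.N (Ideal.span {(e.N : 𝓞 K), η})
      (Ideal.span {(e.N : 𝓞 K), s η}) e.S e.P (fun p => Ideal.span {(p : 𝓞 K), s η}) φ :=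
    ⟨g.sp cN ((Int.natCast_dvd_natCast.2 (dvd_mul_left _ _)).trans d4), fun p h => by
      rw [g.below (e.ov p h) (hp p h).2.1]
      exact g.sp (cp p h) (hp p h).1, fun p h => by
      rw [g.below (e.ov p h) (hp p h).2.1]
      exact ⟨cop g cN (Ideal.mem_sup_left (m1 _ _))
        (add_comm η _ ▸ Submodule.add_mem_sup (m2 _ _) (m2 _ _)),
        cop g cN (Ideal.mem_sup_left (m1 _ _)) (Submodule.add_mem_sup (m2 _ _) (m2 _ _))⟩,
      fun p h => le p h (P022D.W.phi_mem (e.ov p h).1 (e.ov p h).2.1 (hφ p h)), hφ⟩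
  obtain ⟨Y, M, M0, hY⟩ := hh K j hK up _ _ _ _ _ _ _ _ _ _ _ e.rn e.par ch.lev.cn
  exact ⟨{ δ' := δ'
           β := β
           adm := ad
           dat := ⟨ad.sq, ad.m8, fun p a b d => ad.spl p (inS e a d) b, by omega, by
             obtain ⟨y, rfl⟩ := d4
             exact ⟨y, by rw [e2]; push_cast; ring⟩⟩
           K := K
           j := j
           iq := hK
           upm := up
           θ := θ
           η := η
           I := _
           I' := _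
           Q := _
           φ := φ
           th := hθ
           im := im
           mem := m2 _ _
           eta := e1
           ch := ch
           le := le
           c := c
           cc := hc
           Y := Y
           M := M
           M0 := M0
           hg := fun c a b => (hY c a b).1
           fx := fun c a b => (hY c a b).2.1
           ine := fun c l n t a b h1 h2 h3 => ((hY c a b).2.2 l n t h1 h2 h3).1
           spl := fun c l n t a b h1 h2 h3 => ((hY c a b).2.2 l n t h1 h2 h3).2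
           qx := fun c a b g hg p h => (hT δ' (by omega) ad.sq K j hK θ hθ _ _ _ φ ch c a b
             (Y c) (hY c a (Nat.Coprime.coprime_mul_right_right b)).1 g hg p h).1 },
    rfl, rfl, rfl, rfl, rfl, fun _ => rfl, fun _ _ => Iff.rfl, RingEquiv.refl K, fun _ => rfl,
    rfl, rfl⟩

end Fd

/-- **row FLD with more**: the two fields are identified with all their data -/
theorem fld' (hh : HEEG) (hq : QEXP) (e e' : Crv) (hS : e'.S = e.S) (hP : e'.P = e.P) : ∃ T, ∀ δ', T ≤ δ' → e.Adm δ' →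
    ∃ (b : Fld e) (b' : Fld e'), b.δ' = δ' ∧ b.Same b' ∧ b'.β = b.β ∧
      ∃ i : b'.K ≃+* b.K, (∀ x, b.j (i x) = b'.j x) ∧ i b'.θ = b.θ ∧ i b'.η = b.η := by
  obtain ⟨T, h⟩ := Fd.one hh hq e
  obtain ⟨T', h'⟩ := Fd.one hh hq e'
  refine ⟨T + T' + 1, fun δ' hδ ad => ?_⟩
  obtain ⟨K, _, _, j, θ, hK, hθ, im⟩ := ex_K (δ := δ') (by omega)
  obtain ⟨η, s, β, n, g, e1, e2, dn, hp⟩ := ex_ge hK ad.sq ad.m8 hθ im e.S.toFinset e.P
    (fun p hp => e.ov p (List.mem_toFinset.1 hp)) (fun p hp => ad.spl p (List.mem_toFinset.1 hp))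
    (4 * e.N + 4 * e'.N)
  have fb (p : ℕ) : ∃ φ : GQ, p ∈ e.S → Fb p (e.P p) φ := by
    by_cases h : p ∈ e.S
    · exact (P022D.W.exists_phi (e.ov p h).1 (e.ov p h).2.1 (e.ov p h).2.2).imp fun _ a _ => a
    · exact ⟨1, fun a => absurd a h⟩
  choose φ hφ using fb
  obtain ⟨c, hc⟩ := ex_c
  have hp' : ∀ p ∈ e.S, (p : ℤ) ∣ n ∧ iz j η ∈ e.P p ∧ ¬ (p : ℤ) ∣ β := fun p k =>
    ⟨(Int.natCast_dvd_natCast.2 (Finset.dvd_prod_of_mem _ (List.mem_toFinset.2 k))).trans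
      ((dvd_pow_self _ (Nat.succ_ne_zero _)).trans dn), hp p (List.mem_toFinset.2 k)⟩
  obtain ⟨b, a1, a2, a3, a4, a5, a6, a7, i, a8, a9, a10⟩ := h δ' (by omega) ad K j θ η s β n φ c hK
    hθ im g e1 e2 (.trans (by exact_mod_cast Fd.d4 e (Nat.le_add_right _ _)) dn) hp' hφ hc
  obtain ⟨b', c1, c2, c3, c4, c5, c6, c7, i', c8, c9, c10⟩ := h' δ' (by omega)
    ⟨ad.sq, ad.m8, hS ▸ ad.spl⟩ K j θ η s β n φ c hK hθ im g e1 e2
    (.trans (by exact_mod_cast hS ▸ Fd.d4 e' (Nat.le_add_left _ _)) dn)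
    (by rw [hS, hP]; exact hp') (by rw [hS, hP]; exact hφ) hc
  refine ⟨b, b', a1, ⟨c1.trans a1.symm, c5.trans a5.symm, fun x => (c6 x).trans (a6 x).symm,
    fun q k => (c7 q k).trans (a7 q k).symm, c3.trans a3.symm, c4.trans a4.symm⟩,
    c2.trans a2.symm, i'.trans i.symm, fun x => ?_, ?_, ?_⟩
  · rw [RingEquiv.trans_apply, ← a8, i.apply_symm_apply, c8]
  · rw [RingEquiv.trans_apply, c9, ← a9, i.symm_apply_apply]
  · rw [RingEquiv.trans_apply, c10, ← a10, i.symm_apply_apply]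

/-- **row FLD** -/
theorem fld (hh : HEEG) (hq : QEXP) : FLD := fun e e' hS hP => (fld' hh hq e e' hS hP).imp fun _ h δ' a b => by
  obtain ⟨b, b', a1, a2, -⟩ := h δ' a b
  exact ⟨b, b', a1, a2⟩

end Vale.Agent.P014Y.F
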